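import Mathlib
import Vale.Agent.P133.OneSided

/-!
# P133: strong pure infiniteness for pairs with projections on one side
-/

namespace Vale.Agent.Results.P133.OneSidedProjections

open Vale.Agent.P133
open scoped CStarAlgebra

universe u

theorem result :
    (∀ (A : Type u) [NonUnitalCStarAlgebra A] [PartialOrder A] [StarOrderedRing A],
      (∀ h : A, 0 ≤ h → ∀ ε : ℝ, 0 < ε → ∃ z₁ z₂ : A,
        ‖star z₁ * h * z₁ - h‖ < ε ∧ ‖star z₂ * h * z₂ - h‖ < ε ∧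
        ‖star z₁ * h * z₂‖ < ε ∧ ‖star z₂ * h * z₁‖ < ε) →
      ∀ x y : A, 0 ≤ x → 0 ≤ y →
        ((∀ ε : ℝ, 0 < ε → ∃ P a z : A, IsStarProjection P ∧ x * a = P ∧
            ‖star z * P * z - x * x‖ < ε) ∨
          (∀ ε : ℝ, 0 < ε → ∃ P a z : A, IsStarProjection P ∧ y * a = P ∧
            ‖star z * P * z - y * y‖ < ε)) →
        ∀ ε : ℝ, 0 < ε → ∃ s t : A, ‖star s * (x * x) * s - x * x‖ < ε ∧
          ‖star t * (y * y) * t - y * y‖ < ε ∧ ‖star s * x * y * t‖ < ε) ∧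
    (∀ (A : Type u) [CStarAlgebra A] [PartialOrder A] [StarOrderedRing A],
      (∀ h : A, 0 ≤ h → ∀ ε : ℝ, 0 < ε → ∃ z₁ z₂ : A,
        ‖star z₁ * h * z₁ - h‖ < ε ∧ ‖star z₂ * h * z₂ - h‖ < ε ∧
        ‖star z₁ * h * z₂‖ < ε ∧ ‖star z₂ * h * z₁‖ < ε) →
      ∀ x y : A, 0 ≤ x → 0 ≤ y →
        ((∃ (n : ℕ) (a b : Fin n → A), ∑ i, a i * x * b i = 1) ∨
          (∃ (n : ℕ) (a b : Fin n → A), ∑ i, a i * y * b i = 1)) →
        ∀ ε : ℝ, 0 < ε → ∃ s t : A, ‖star s * (x * x) * s - x * x‖ < ε ∧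
          ‖star t * (y * y) * t - y * y‖ < ε ∧ ‖star s * x * y * t‖ < ε) := by
  refine ⟨fun A _ _ _ hA x y hx hy h ε hε => ?_, fun A _ _ _ hA x y hx hy h ε hε => ?_⟩
  · rcases h with h | h
    · exact pair hA hx hy h hε
    · obtain ⟨s, t, h1, h2, h3⟩ := pair hA hy hx h hε
      refine ⟨t, s, h2, h1, ?_⟩
      rwa [← norm_star, star_mul, star_mul, star_mul, star_star,
        (IsSelfAdjoint.of_nonneg hx).star_eq, (IsSelfAdjoint.of_nonneg hy).star_eq,
        ← mul_assoc, ← mul_assoc]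
  · have sq : ∀ z : A, 0 ≤ z → Split (z * z) := fun z hz => hA _ (by
      have h' := star_mul_self_nonneg z
      rwa [(IsSelfAdjoint.of_nonneg hz).star_eq] at h')
    rcases h with ⟨n, a, b, h⟩ | ⟨n, a, b, h⟩
    · obtain ⟨P, c, z, hP, hc, hz⟩ := full_projection (sq x hx) hx a b h
      exact pair hA hx hy (fun η hη => ⟨P, c, z, hP, hc, by simpa [hz] using hη⟩) hε
    · obtain ⟨P, c, z, hP, hc, hz⟩ := full_projection (sq y hy) hy a b h
      obtain ⟨s, t, h1, h2, h3⟩ :=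
        pair hA hy hx (fun η hη => ⟨P, c, z, hP, hc, by simpa [hz] using hη⟩) hε
      refine ⟨t, s, h2, h1, ?_⟩
      rwa [← norm_star, star_mul, star_mul, star_mul, star_star,
        (IsSelfAdjoint.of_nonneg hx).star_eq, (IsSelfAdjoint.of_nonneg hy).star_eq,
        ← mul_assoc, ← mul_assoc]

end Vale.Agent.Results.P133.OneSidedProjections
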